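import Vale.Agent.Lib.P249M.BlocksA

namespace Vale.Agent.Lib.P249M

open Finset Vale.Agent.Lib.P249L

theorem sum_blk {K k M : ℕ} (blk : Fin K → Fin k)
    (hfib : ∀ j, (univ.filter fun i => blk i = j).card = M) (φ : Fin k → ℝ) :
    ∑ i, φ (blk i) = M * ∑ j, φ j := by
  rw [← Finset.sum_fiberwise (s := univ) (g := blk) (f := fun i => φ (blk i)), Finset.mul_sum]
  refine Finset.sum_congr rfl fun j _ => ?_
  have h1 : ∑ i ∈ univ.filter (fun i => blk i = j), φ (blk i)
      = ∑ _i ∈ univ.filter (fun i => blk i = j), φ j := by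
    refine Finset.sum_congr rfl fun i hi => ?_
    rw [(Finset.mem_filter.mp hi).2]
  rw [h1, Finset.sum_const, hfib j, nsmul_eq_mul]

/-- second moment of the block sums -/
theorem cav_uu_sq {K k : ℕ} (blk : Fin K → Fin k) :
    cav (fun x => ∑ j, uu blk x j ^ 2) = K := by
  rw [cav_sum]
  have h1 : ∀ j : Fin k, cav (fun x => uu blk x j ^ 2)
      = ∑ i, (if blk i = j then (1 : ℝ) else 0) := by
    intro j
    have : (fun x => uu blk x j ^ 2)
        = fun x => rad (fun i => if blk i = j then (1 : ℝ) else 0) x ^ 2 := by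
      funext x
      rw [uu_eq_rad]
    rw [this, cav_rad_sq]
    refine Finset.sum_congr rfl fun i _ => ?_
    split_ifs <;> simp
  rw [Finset.sum_congr rfl fun j _ => h1 j, Finset.sum_comm]
  simp

/-- the block sums are grid points -/
theorem exists_cnt {K k M : ℕ} (blk : Fin K → Fin k)
    (hfib : ∀ j, (univ.filter fun i => blk i = j).card = M) (x : Fin K → Bool) :
    ∃ c : Fin k → Fin (M + 1), gpt k M c = uu blk x := by
  have hle : ∀ j, (univ.filter fun i => blk i = j ∧ x i = true).card < M + 1 := by
    intro j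
    rw [Nat.lt_succ_iff, ← hfib j]
    refine Finset.card_le_card fun i hi => ?_
    rw [Finset.mem_filter] at hi ⊢
    exact ⟨hi.1, hi.2.1⟩
  refine ⟨fun j => ⟨_, hle j⟩, ?_⟩
  funext j
  simp only [gpt, uu]
  have h1 : ∀ i, (if blk i = j then sg (x i) else 0)
      = 2 * (if blk i = j ∧ x i = true then (1 : ℝ) else 0) - (if blk i = j then (1 : ℝ) else 0) := by
    intro i
    by_cases hb : blk i = j
    · cases hx : x i <;> simp [hb, sg]
      norm_num
    · simp [hb]
  rw [Finset.sum_congr rfl fun i _ => h1 i, Finset.sum_sub_distrib, ← Finset.mul_sum,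
    Finset.sum_boole, Finset.sum_boole, hfib j]

/-- a block structure with `k` blocks of size `M` -/
theorem exists_blk (k M : ℕ) : ∃ blk : Fin (k * M) → Fin k,
    ∀ j, (univ.filter fun i => blk i = j).card = M := by
  refine ⟨fun i => (finProdFinEquiv.symm i).1, fun j => ?_⟩
  have h : (univ.filter fun i : Fin (k * M) => (finProdFinEquiv.symm i).1 = j)
      = (univ : Finset (Fin M)).map
        ⟨fun l => finProdFinEquiv (j, l), fun a b hab => by
          have := finProdFinEquiv.injective hab
          exact (Prod.mk.inj this).2⟩ := by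
    ext i
    simp only [Finset.mem_filter, Finset.mem_univ, true_and, Finset.mem_map]
    constructor
    · intro hi
      refine ⟨(finProdFinEquiv.symm i).2, ?_⟩
      change finProdFinEquiv (j, (finProdFinEquiv.symm i).2) = i
      rw [← hi]
      exact finProdFinEquiv.apply_symm_apply i
    · rintro ⟨l, rfl⟩
      change (finProdFinEquiv.symm (finProdFinEquiv (j, l))).1 = j
      rw [Equiv.symm_apply_apply]
  rw [h, Finset.card_map, Finset.card_univ, Fintype.card_fin]

end Vale.Agent.Lib.P249M
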