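import Vale.Agent.Lib.P249M.Defs

namespace Vale.Agent.Lib.P249M

open Finset Vale.Agent.Lib.P249L

theorem uu_eq_rad {K k : ℕ} (blk : Fin K → Fin k) (x : Fin K → Bool) (j : Fin k) :
    uu blk x j = rad (fun i => if blk i = j then 1 else 0) x := by
  unfold uu rad
  refine Finset.sum_congr rfl fun i _ => ?_
  by_cases h : blk i = j
  · simp [h]
  · simp [h]

theorem uu_flip {K k : ℕ} (blk : Fin K → Fin k) (x : Fin K → Bool) (i : Fin K) (j : Fin k) :
    uu blk (flip x i) j = uu blk x j - if blk i = j then 2 * sg (x i) else 0 := by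
  have h : uu blk x j - uu blk (flip x i) j = if blk i = j then 2 * sg (x i) else 0 := by
    unfold uu
    rw [← Finset.sum_sub_distrib, Finset.sum_eq_single i]
    · simp only [P249L.flip, Function.update_self]
      split_ifs
      · cases x i <;> simp only [sg] <;> norm_num
      · simp
    · intro l _ hl
      simp [P249L.flip, Function.update_of_ne hl]
    · intro h; exact absurd (Finset.mem_univ i) h
  linarith

theorem uu_anti {K k : ℕ} (blk : Fin K → Fin k) (x : Fin K → Bool) (j : Fin k) :
    uu blk (anti x) j = - uu blk x j := by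
  unfold uu
  rw [← Finset.sum_neg_distrib]
  refine Finset.sum_congr rfl fun i _ => ?_
  simp only [anti]
  split_ifs
  · cases x i <;> simp [sg]
  · simp

theorem dsq_flip {K k : ℕ} (blk : Fin K → Fin k) (x : Fin K → Bool) (i : Fin K)
    (b : Fin k → ℝ) :
    dsq (uu blk (flip x i)) b
      = dsq (uu blk x) b - 4 * sg (x i) * (uu blk x (blk i) - b (blk i)) + 4 := by
  have hsg : sg (x i) ^ 2 = 1 := by cases x i <;> simp [sg]
  unfold dsq
  have h1 : ∀ j, (uu blk (flip x i) j - b j) ^ 2 = (uu blk x j - b j) ^ 2
      + (if blk i = j then (- 4 * sg (x i) * (uu blk x j - b j) + 4) else 0) := by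
    intro j
    rw [uu_flip]
    split_ifs
    · linear_combination 4 * hsg
    · ring
  rw [Finset.sum_congr rfl fun j _ => h1 j, Finset.sum_add_distrib, Finset.sum_ite_eq]
  simp only [Finset.mem_univ, if_true]
  ring

end Vale.Agent.Lib.P249M
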