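import Vale.Agent.Lib.P249M.Defs

namespace Vale.Agent.Lib.P249M

open Finset Vale.Agent.Lib.P249L

theorem exp_aux {a r ν : ℝ} (ha : 0 ≤ a) (haν : a ≤ ν) (hν : ν < 1) (hr : 1 ≤ r * (1 - ν)) :
    Real.exp a * (1 + r * (ν - a)) ≤ 1 + r * ν := by
  have h1ν : 0 < 1 - ν := by linarith
  have hr0 : 0 < r := by
    by_contra h
    have h' : r ≤ 0 := not_lt.mp h
    have : r * (1 - ν) ≤ 0 := mul_nonpos_of_nonpos_of_nonneg h' h1ν.le
    linarith
  have hν0 : 0 ≤ ν := ha.trans haν
  have he : Real.exp a * (1 - a) ≤ 1 := by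
    have h1 : 1 - a ≤ Real.exp (-a) := by
      have := Real.add_one_le_exp (-a)
      linarith
    calc Real.exp a * (1 - a) ≤ Real.exp a * Real.exp (-a) :=
          mul_le_mul_of_nonneg_left h1 (Real.exp_pos a).le
      _ = 1 := by rw [← Real.exp_add]; simp
  have h2 : 1 + r * (ν - a) ≤ (1 + r * ν) * (1 - a) := by
    have : a * (1 - r * (1 - ν)) ≤ 0 := mul_nonpos_of_nonneg_of_nonpos ha (by linarith)
    nlinarith
  have h3 : 0 ≤ 1 + r * ν := by positivity
  calc Real.exp a * (1 + r * (ν - a)) ≤ Real.exp a * ((1 + r * ν) * (1 - a)) :=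
        mul_le_mul_of_nonneg_left h2 (Real.exp_pos a).le
    _ = (1 + r * ν) * (Real.exp a * (1 - a)) := by ring
    _ ≤ (1 + r * ν) * 1 := mul_le_mul_of_nonneg_left he h3
    _ = 1 + r * ν := by ring

theorem cav_nonneg' {k : ℕ} {F : (Fin k → Bool) → ℝ} (h : ∀ x, 0 ≤ F x) : 0 ≤ cav F := by
  have := cav_mono (F := fun _ : Fin k → Bool => (0 : ℝ)) (G := F) h
  rwa [cav_const] at this

/-- Khasminskii type bound for the exponential moment of the compensator. -/
theorem comp_exp {k : ℕ} (β : Fin k → (Fin k → Bool) → ℝ) (v θ : ℝ)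
    (hβ0 : ∀ i x, 0 ≤ β i x) (hv : ∀ x, ∑ i, β i x ≤ v) (hθ : 0 ≤ θ) (hθv : θ * v < 1) :
    cav (fun x => Real.exp (θ * comp k β x))
      ≤ 1 + 1 / (1 - θ * v) * (θ * cav (fun x => ∑ i, β i x)) := by
  induction k with
  | zero =>
    rw [cav_zero _ (fun i => i.elim0), cav_zero _ (fun i => i.elim0)]
    simp [comp]
  | succ k ih =>
    set r : ℝ := 1 / (1 - θ * v) with hr
    have h1v : 0 < 1 - θ * v := by linarith
    have hr0 : 0 < r := by rw [hr]; positivity
    set t : ℝ := cav (β 0) with ht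
    set βb : Bool → Fin k → (Fin k → Bool) → ℝ := fun b i y => β i.succ (Fin.cons b y) with hβb
    set μb : Bool → ℝ := fun b => cav (fun y => ∑ i, βb b i y) with hμb
    set φb : Bool → ℝ := fun b => cav (fun y => Real.exp (θ * comp k (βb b) y)) with hφb
    have hIH : ∀ b, φb b ≤ 1 + r * (θ * μb b) := by
      intro b
      apply ih (βb b) (fun i y => hβ0 _ _)
      intro y
      have h1 := hv (Fin.cons b y)
      rw [Fin.sum_univ_succ] at h1
      have h2 := hβ0 0 (Fin.cons b y)
      show ∑ i : Fin k, β i.succ (Fin.cons b y) ≤ v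
      linarith
    have hcomp : ∀ (b : Bool) (y : Fin k → Bool),
        comp (k + 1) β (Fin.cons b y) = t + comp k (βb b) y := by
      intro b y
      simp [comp, hβb, ht]
    have hL : cav (fun x => Real.exp (θ * comp (k + 1) β x))
        = Real.exp (θ * t) * ((φb true + φb false) / 2) := by
      rw [cav_succ]
      have h1 : ∀ b : Bool, cav (fun y : Fin k → Bool =>
          Real.exp (θ * comp (k + 1) β (Fin.cons b y))) = Real.exp (θ * t) * φb b := by
        intro b
        rw [hφb]
        simp only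
        rw [← cav_mul_left]
        congr 1
        funext y
        rw [hcomp, mul_add, Real.exp_add]
      rw [h1 true, h1 false]
      ring
    have hμ : cav (fun x => ∑ i, β i x) = t + (μb true + μb false) / 2 := by
      have h1 : (fun x : Fin (k + 1) → Bool => ∑ i, β i x)
          = fun x => β 0 x + ∑ i : Fin k, β i.succ x := by
        funext x
        rw [Fin.sum_univ_succ]
      rw [h1, cav_add, cav_succ (fun x => ∑ i : Fin k, β i.succ x)]
    have hμb0 : ∀ b, 0 ≤ μb b := fun b =>
      cav_nonneg' (fun y => Finset.sum_nonneg (fun i _ => hβ0 _ _))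
    have ht0 : 0 ≤ t := cav_nonneg' (fun x => hβ0 0 x)
    set μ : ℝ := cav (fun x => ∑ i, β i x) with hμdef
    have hμv : μ ≤ v := by
      have := cav_mono (F := fun x => ∑ i, β i x) (G := fun _ => v) hv
      rwa [cav_const] at this
    have htμ : t ≤ μ := by
      rw [hμ]
      have := hμb0 true
      have := hμb0 false
      linarith
    have haux := exp_aux (a := θ * t) (r := r) (ν := θ * μ) (mul_nonneg hθ ht0)
      (mul_le_mul_of_nonneg_left htμ hθ)
      (lt_of_le_of_lt (mul_le_mul_of_nonneg_left hμv hθ) hθv)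
      (by
        rw [hr, one_div, inv_mul_eq_div, le_div_iff₀ h1v]
        have := mul_le_mul_of_nonneg_left hμv hθ
        linarith)
    rw [hL]
    have h5 : (φb true + φb false) / 2 ≤ 1 + r * (θ * μ - θ * t) := by
      have h6 := hIH true
      have h7 := hIH false
      have h8 : θ * μ - θ * t = θ * ((μb true + μb false) / 2) := by
        rw [hμ]; ring
      rw [h8]
      have : 1 + r * (θ * ((μb true + μb false) / 2))
          = ((1 + r * (θ * μb true)) + (1 + r * (θ * μb false))) / 2 := by ring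
      rw [this]
      linarith
    calc Real.exp (θ * t) * ((φb true + φb false) / 2)
        ≤ Real.exp (θ * t) * (1 + r * (θ * μ - θ * t)) :=
          mul_le_mul_of_nonneg_left h5 (Real.exp_pos _).le
      _ ≤ 1 + r * (θ * μ) := haux

theorem comp_exp' {k : ℕ} (β : Fin k → (Fin k → Bool) → ℝ) (v θ : ℝ)
    (hβ0 : ∀ i x, 0 ≤ β i x) (hv : ∀ x, ∑ i, β i x ≤ v) (hθ : 0 ≤ θ) (hθv : θ * v ≤ 1 / 2) :
    cav (fun x => Real.exp (θ * comp k β x)) ≤ 2 := by
  have h1 := comp_exp β v θ hβ0 hv hθ (by linarith)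
  have hμv : cav (fun x => ∑ i, β i x) ≤ v := by
    have := cav_mono (F := fun x => ∑ i, β i x) (G := fun _ => v) hv
    rwa [cav_const] at this
  have h1v : 0 < 1 - θ * v := by linarith
  have h2 : 1 / (1 - θ * v) * (θ * cav (fun x => ∑ i, β i x)) ≤ 1 := by
    rw [one_div, inv_mul_eq_div, div_le_one h1v]
    have := mul_le_mul_of_nonneg_left hμv hθ
    linarith
  linarith

end Vale.Agent.Lib.P249M
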