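import Vale.Agent.Lib.P249M.Blocks

namespace Vale.Agent.Lib.P249M

open Finset Vale.Agent.Lib.P249L

theorem dsq_nonneg_aux {k : ℕ} (a b : Fin k → ℝ) : 0 ≤ dsq a b := by
  unfold dsq
  exact sum_nonneg fun j _ => sq_nonneg _

theorem dsq_self_aux {k : ℕ} (a : Fin k → ℝ) : dsq a a = 0 := by
  unfold dsq
  simp

theorem neg_sg_mul_le_abs (b : Bool) (w : ℝ) : - (sg b * w) ≤ |w| := by
  cases b
  · simp only [sg]
    have := le_abs_self w
    simp
    linarith
  · simp only [sg]
    have := neg_abs_le w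
    simp
    linarith

/-- Regularisation by infimal convolution with the quadratic Euclidean cost. -/
theorem exists_reg2 {K k M : ℕ} (blk : Fin K → Fin k)
    (hfib : ∀ j, (univ.filter fun i => blk i = j).card = M)
    (g : (Fin K → Bool) → ℝ) (L s : ℝ) (hL : 0 ≤ L) (hs : 0 < s)
    (hg : ∀ x y, |g x - g y| ≤ L * Real.sqrt (dsq (uu blk x) (uu blk y))) :
    ∃ (G : (Fin K → Bool) → ℝ) (β : Fin K → (Fin K → Bool) → ℝ),
      (∀ x, G x ≤ g x) ∧ (∀ x, g x ≤ G x + L ^ 2 * s / 2) ∧ (∀ i x, 0 ≤ β i x) ∧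
      (∀ x i, (G x - G (flip x i)) ^ 2 ≤ β i x + β i (flip x i)) ∧
      (∀ x, ∑ i, β i x ≤ 32 * L ^ 2 * M + 8 * K / s ^ 2) := by
  let G : (Fin K → Bool) → ℝ := fun x =>
    univ.inf' univ_nonempty (fun y => g y + dsq (uu blk x) (uu blk y) / (2 * s))
  have hex : ∀ x, ∃ y, G x = g y + dsq (uu blk x) (uu blk y) / (2 * s) := by
    intro x
    obtain ⟨y, _, hy⟩ := exists_mem_eq_inf' (s := (univ : Finset (Fin K → Bool))) univ_nonempty
      (fun y => g y + dsq (uu blk x) (uu blk y) / (2 * s))
    exact ⟨y, hy⟩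
  choose ys hys using hex
  have hle : ∀ x y, G x ≤ g y + dsq (uu blk x) (uu blk y) / (2 * s) := fun x y =>
    inf'_le (fun y => g y + dsq (uu blk x) (uu blk y) / (2 * s)) (mem_univ y)
  have hGg : ∀ x, G x ≤ g x := by
    intro x
    have h := hle x x
    rw [dsq_self_aux] at h
    simpa using h
  let W : (Fin K → Bool) → Fin k → ℝ := fun x j => uu blk x j - uu blk (ys x) j
  let bb : Fin K → (Fin K → Bool) → ℝ := fun i x => (2 * |W x (blk i)| + 2) / s
  have hbb0 : ∀ i x, 0 ≤ bb i x := by
    intro i x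
    have : 0 ≤ |W x (blk i)| := abs_nonneg _
    positivity
  have hstep : ∀ x i, G (P249L.flip x i) ≤ G x + bb i x := by
    intro x i
    have h1 := hle (P249L.flip x i) (ys x)
    rw [dsq_flip] at h1
    have h2 := hys x
    have h3 : - (sg (x i) * W x (blk i)) ≤ |W x (blk i)| := neg_sg_mul_le_abs _ _
    have h4 : (dsq (uu blk x) (uu blk (ys x))
        - 4 * sg (x i) * (uu blk x (blk i) - uu blk (ys x) (blk i)) + 4) / (2 * s)
        = dsq (uu blk x) (uu blk (ys x)) / (2 * s)
          + (2 * (- (sg (x i) * W x (blk i))) + 2) / s := by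
      simp only [W]
      field_simp
      ring
    have h5 : (2 * (- (sg (x i) * W x (blk i))) + 2) / s ≤ bb i x := by
      simp only [bb]
      apply div_le_div_of_nonneg_right _ hs.le
      linarith
    rw [h4] at h1
    linarith
  have hdsq : ∀ x, dsq (uu blk x) (uu blk (ys x)) ≤ 4 * L ^ 2 * s ^ 2 := by
    intro x
    have h1 := hGg x
    have h2 := hys x
    have h3 := (abs_le.1 (hg x (ys x))).2
    set r := Real.sqrt (dsq (uu blk x) (uu blk (ys x))) with hr
    have hr0 : 0 ≤ r := Real.sqrt_nonneg _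
    have hr2 : r ^ 2 = dsq (uu blk x) (uu blk (ys x)) := Real.sq_sqrt (dsq_nonneg_aux _ _)
    rw [← hr2] at h2 ⊢
    have h4 : r ^ 2 / (2 * s) ≤ L * r := by linarith
    have h5 : r ^ 2 ≤ L * r * (2 * s) := by
      rwa [div_le_iff₀ (by positivity)] at h4
    have h6 : r ≤ 2 * s * L := by
      by_contra hcon
      push Not at hcon
      have hrpos : 0 < r := lt_of_le_of_lt (by positivity) hcon
      nlinarith
    have h7 : 0 ≤ 2 * s * L := by positivity
    nlinarith
  refine ⟨G, fun i x => (bb i x) ^ 2, hGg, ?_, fun i x => sq_nonneg _, ?_, ?_⟩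
  · intro x
    have : g x - L ^ 2 * s / 2 ≤ G x := by
      apply le_inf'
      intro y _
      have h1 := (abs_le.1 (hg x y)).2
      set r := Real.sqrt (dsq (uu blk x) (uu blk y)) with hr
      have hr2 : r ^ 2 = dsq (uu blk x) (uu blk y) := Real.sq_sqrt (dsq_nonneg_aux _ _)
      have h2 : L * r ≤ dsq (uu blk x) (uu blk y) / (2 * s) + L ^ 2 * s / 2 := by
        rw [← hr2]
        have h3 : 0 ≤ (r - L * s) ^ 2 / (2 * s) := by positivity
        have h4 : (r - L * s) ^ 2 / (2 * s) = r ^ 2 / (2 * s) + L ^ 2 * s / 2 - L * r := by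
          field_simp
          ring
        linarith
      linarith
    linarith
  · intro x i
    have h1 := hstep x i
    have h2 := hstep (P249L.flip x i) i
    rw [P249L.flip_flip] at h2
    have h3 := hbb0 i x
    have h4 := hbb0 i (P249L.flip x i)
    by_cases ht : 0 ≤ G x - G (P249L.flip x i)
    · have : (G x - G (P249L.flip x i)) ^ 2 ≤ (bb i (P249L.flip x i)) ^ 2 := by
        apply pow_le_pow_left₀ ht
        linarith
      have := sq_nonneg (bb i x)
      linarith
    · push Not at ht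
      have : (G (P249L.flip x i) - G x) ^ 2 ≤ (bb i x) ^ 2 := by
        apply pow_le_pow_left₀ (by linarith)
        linarith
      have h5 : (G x - G (P249L.flip x i)) ^ 2 = (G (P249L.flip x i) - G x) ^ 2 := by ring
      have := sq_nonneg (bb i (P249L.flip x i))
      linarith
  · intro x
    have h1 : ∀ i, (bb i x) ^ 2 ≤ (8 * (W x (blk i)) ^ 2 + 8) / s ^ 2 := by
      intro i
      simp only [bb]
      rw [div_pow]
      apply div_le_div_of_nonneg_right _ (by positivity)
      have h := sq_abs (W x (blk i))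
      nlinarith [sq_nonneg (|W x (blk i)| - 1)]
    have h2 : ∑ i, (W x (blk i)) ^ 2 = M * dsq (uu blk x) (uu blk (ys x)) := by
      have := sum_blk blk hfib (fun j => (W x j) ^ 2)
      simpa [W, dsq] using this
    calc ∑ i, (bb i x) ^ 2 ≤ ∑ i : Fin K, (8 * (W x (blk i)) ^ 2 + 8) / s ^ 2 :=
          sum_le_sum fun i _ => h1 i
      _ = (8 * (M * dsq (uu blk x) (uu blk (ys x))) + 8 * K) / s ^ 2 := by
          rw [← sum_div, sum_add_distrib, ← mul_sum, h2]
          simp
          ring
      _ ≤ (8 * (M * (4 * L ^ 2 * s ^ 2)) + 8 * K) / s ^ 2 := by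
          apply div_le_div_of_nonneg_right _ (by positivity)
          have := mul_le_mul_of_nonneg_left (hdsq x) (Nat.cast_nonneg M : (0 : ℝ) ≤ M)
          linarith
      _ = 32 * L ^ 2 * M + 8 * K / s ^ 2 := by
          field_simp
          ring

end Vale.Agent.Lib.P249M
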