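import Vale.Agent.Lib.P249M.Mgf
import Vale.Agent.Lib.P249M.Reg2

namespace Vale.Agent.Lib.P249M

open Finset Vale.Agent.Lib.P249L

/-- Functions of the block sums which are Lipschitz for the Euclidean distance oscillate by at
most a constant times `L sqrt M`; here `r = sqrt M`. -/
theorem conc2 {K k M : ℕ} (blk : Fin K → Fin k)
    (hfib : ∀ j, (univ.filter fun i => blk i = j).card = M) (hK : K ≤ M * M)
    (g : (Fin K → Bool) → ℝ) (L r : ℝ) (hL : 0 < L) (hr : 0 < r) (hrM : r ^ 2 = M)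
    {p : ℝ} (hp : 2 ≤ p)
    (hg : ∀ x y, |g x - g y| ≤ L * Real.sqrt (dsq (uu blk x) (uu blk y))) :
    cav (fun x => |g x - g (anti x)| ^ p) ≤ (81 * p * L * r) ^ p := by
  have hp0 : 0 < p := by linarith
  have hs : 0 < r / L := by positivity
  obtain ⟨G, β, h1, h2, hβ0, hβ, hv⟩ := exists_reg2 blk hfib g L (r / L) hL.le hs hg
  set m := cav G with hm
  set W := 9 * p * L * r with hW
  have hWpos : 0 < W := by positivity
  have hKr : (K : ℝ) ≤ r ^ 2 * r ^ 2 := by
    rw [hrM]
    exact_mod_cast hK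
  have hv' : ∀ x, ∑ i, β i x ≤ 40 * L ^ 2 * r ^ 2 := by
    intro x
    refine (hv x).trans ?_
    rw [← hrM]
    have e : 8 * (K : ℝ) / (r / L) ^ 2 = 8 * L ^ 2 * (K / r ^ 2) := by
      field_simp
    rw [e]
    have : (K : ℝ) / r ^ 2 ≤ r ^ 2 := by
      rw [div_le_iff₀ (by positivity)]
      exact hKr
    have h8 : 0 ≤ 8 * L ^ 2 := by positivity
    nlinarith [mul_le_mul_of_nonneg_left this h8]
  -- the moment bound
  have hA : cav (fun x => |G x - m| ^ p) ≤ 4 * W ^ p := by
    have hl : 0 < 1 / (9 * L * r) := by positivity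
    have hl2 : (1 / (9 * L * r)) ^ 2 * (40 * L ^ 2 * r ^ 2) ≤ 1 / 2 := by
      have : (1 / (9 * L * r)) ^ 2 * (40 * L ^ 2 * r ^ 2) = 40 / 81 := by
        field_simp
        norm_num
      rw [this]
      norm_num
    have := moment_grad G β (40 * L ^ 2 * r ^ 2) (1 / (9 * L * r)) hβ0 hβ hv' hl hl2 hp0
    have e1 : p / (1 / (9 * L * r)) = W := by
      rw [hW]; field_simp
    rwa [e1] at this
  have hs2 : L ^ 2 * (r / L) / 2 = L * r / 2 := by
    field_simp
  -- pointwise bound
  have hpt : ∀ a, |g a - g (anti a)| ^ p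
      ≤ 3 ^ p * (|G a - m| ^ p + |G (anti a) - m| ^ p + (L * r / 2) ^ p) := by
    intro a
    have hb : |g a - g (anti a)| ≤ |G a - m| + |G (anti a) - m| + L * r / 2 := by
      have a1 := h1 a
      have a2 := h2 a
      have b1 := h1 (anti a)
      have b2 := h2 (anti a)
      rw [hs2] at a2 b2
      have c1 := le_abs_self (G a - m)
      have c2 := neg_abs_le (G a - m)
      have d1 := le_abs_self (G (anti a) - m)
      have d2 := neg_abs_le (G (anti a) - m)
      rw [abs_le]
      constructor <;> linarith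
    calc |g a - g (anti a)| ^ p ≤ (|G a - m| + |G (anti a) - m| + L * r / 2) ^ p :=
          Real.rpow_le_rpow (abs_nonneg _) hb hp0.le
      _ ≤ _ := three_rpow (abs_nonneg _) (abs_nonneg _) (by positivity) hp0
  have hcav : cav (fun a => 3 ^ p * (|G a - m| ^ p + |G (anti a) - m| ^ p + (L * r / 2) ^ p))
      = 3 ^ p * (cav (fun x => |G x - m| ^ p) + cav (fun x => |G x - m| ^ p)
          + (L * r / 2) ^ p) := by
    rw [cav_mul_left, cav_add, cav_add, cav_const, cav_anti (fun x => |G x - m| ^ p)]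
  have h9 : (9 : ℝ) ≤ 3 ^ p := by
    have : (3 : ℝ) ^ (2 : ℝ) ≤ 3 ^ p := Real.rpow_le_rpow_of_exponent_le (by norm_num) hp
    have e : (3 : ℝ) ^ (2 : ℝ) = 9 := by
      rw [show (2 : ℝ) = ((2 : ℕ) : ℝ) by norm_num, Real.rpow_natCast]; norm_num
    linarith
  have hLr : (L * r / 2) ^ p ≤ W ^ p := by
    apply Real.rpow_le_rpow (by positivity) _ hp0.le
    rw [hW]
    have : 0 < L * r := by positivity
    nlinarith
  have h3p : (0 : ℝ) ≤ 3 ^ p := Real.rpow_nonneg (by norm_num) p
  have hWp : 0 ≤ W ^ p := Real.rpow_nonneg hWpos.le p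
  calc cav (fun a => |g a - g (anti a)| ^ p)
      ≤ cav (fun a => 3 ^ p * (|G a - m| ^ p + |G (anti a) - m| ^ p + (L * r / 2) ^ p)) :=
        cav_mono hpt
    _ = 3 ^ p * (cav (fun x => |G x - m| ^ p) + cav (fun x => |G x - m| ^ p)
          + (L * r / 2) ^ p) := hcav
    _ ≤ 3 ^ p * (9 * W ^ p) := by
        apply mul_le_mul_of_nonneg_left _ h3p
        linarith
    _ ≤ 3 ^ p * (3 ^ p * W ^ p) := by
        apply mul_le_mul_of_nonneg_left _ h3p
        exact mul_le_mul_of_nonneg_right h9 hWp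
    _ = (81 * p * L * r) ^ p := by
        rw [← Real.mul_rpow (by norm_num) hWpos.le, ← Real.mul_rpow (by norm_num) (by positivity),
          hW]
        ring_nf

end Vale.Agent.Lib.P249M
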