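import Vale.Agent.Lib.P249L.Final

namespace Vale.Agent.Lib.P249M

open Finset Vale.Agent.Lib.P249L

/-- Predictable quadratic variation of the Doob martingale of `G` on the cube. -/
noncomputable def qv : (k : ℕ) → ((Fin k → Bool) → ℝ) → (Fin k → Bool) → ℝ
  | 0, _, _ => 0
  | k + 1, G, x =>
      ((cav (fun y : Fin k → Bool => G (Fin.cons true y))
        - cav (fun y : Fin k → Bool => G (Fin.cons false y))) / 2) ^ 2
        + qv k (fun y => G (Fin.cons (x 0) y)) (Fin.tail x)

/-- Compensator of the family `β`: the sum of the conditional expectations of `β i` given the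
first `i` bits. -/
noncomputable def comp : (k : ℕ) → (Fin k → (Fin k → Bool) → ℝ) → (Fin k → Bool) → ℝ
  | 0, _, _ => 0
  | k + 1, β, x => cav (β 0) + comp k (fun i y => β i.succ (Fin.cons (x 0) y)) (Fin.tail x)

/-- Block sums of the signs: `uu blk x j` is the sum of the signs of the bits of block `j`. -/
noncomputable def uu {K k : ℕ} (blk : Fin K → Fin k) (x : Fin K → Bool) : Fin k → ℝ :=
  fun j => ∑ i, if blk i = j then sg (x i) else 0

/-- Squared Euclidean distance. -/
noncomputable def dsq {k : ℕ} (a b : Fin k → ℝ) : ℝ := ∑ j, (a j - b j) ^ 2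

/-- The grid point with index `c`: coordinates `2 c_j - M`, `0 ≤ c_j ≤ M`. -/
noncomputable def gpt (k M : ℕ) (c : Fin k → Fin (M + 1)) : Fin k → ℝ :=
  fun j => 2 * ((c j : ℕ) : ℝ) - M

end Vale.Agent.Lib.P249M
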