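import Vale.Agent.Lib.P249M.Blocks

namespace Vale.Agent.Lib.P249M

open Finset Vale.Agent.Lib.P249L

theorem khin_gen {k : ℕ} (v : Fin k → ℝ) {p : ℝ} (hp : 2 ≤ p) :
    cav (fun e => |rad v e| ^ p) ≤ (2 * p * Real.sqrt (∑ i, v i ^ 2)) ^ p := by
  have hp0 : 0 < p := by linarith
  have hS0 : 0 ≤ ∑ i, v i ^ 2 := Finset.sum_nonneg fun i _ => sq_nonneg _
  rcases hS0.eq_or_lt with h0 | hpos
  · have hv : ∀ i, v i = 0 := by
      intro i
      have := (Finset.sum_eq_zero_iff_of_nonneg (fun i _ => sq_nonneg (v i))).mp h0.symm i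
        (Finset.mem_univ i)
      exact pow_eq_zero_iff (two_ne_zero) |>.mp this
    have : (fun e : Fin k → Bool => |rad v e| ^ p) = fun _ => (0 : ℝ) := by
      funext e
      have : rad v e = 0 := by
        unfold rad
        exact Finset.sum_eq_zero fun i _ => by rw [hv i, zero_mul]
      rw [this, abs_zero, Real.zero_rpow hp0.ne']
    rw [this, cav_const]
    positivity
  · set S : ℝ := ∑ i, v i ^ 2 with hS
    have hs : 0 < Real.sqrt S := Real.sqrt_pos.mpr hpos
    have hl : 0 < 1 / Real.sqrt S := by positivity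
    have h := khintchine v hp0 hl
    rw [← hS] at h
    refine h.trans ?_
    have e2 : (1 / Real.sqrt S) ^ 2 * S / 2 = 1 / 2 := by
      rw [div_pow, Real.sq_sqrt hpos.le]
      field_simp
    have e3 : p / (1 / Real.sqrt S) = p * Real.sqrt S := by
      field_simp
    rw [e2, e3]
    have e4 : (2 * p * Real.sqrt S) ^ p = 2 ^ p * (p * Real.sqrt S) ^ p := by
      rw [mul_assoc, Real.mul_rpow (by norm_num) (by positivity)]
    rw [e4]
    have h4 : (4 : ℝ) ≤ 2 ^ p := by
      have : (2 : ℝ) ^ (2 : ℝ) ≤ 2 ^ p := Real.rpow_le_rpow_of_exponent_le (by norm_num) hp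
      have e5 : (2 : ℝ) ^ (2 : ℝ) = 4 := by
        rw [show (2 : ℝ) = ((2 : ℕ) : ℝ) by norm_num, Real.rpow_natCast]
        norm_num
      linarith
    have hexp : Real.exp (1 / 2) ≤ 2 := by
      have h1 : Real.exp (1 / 2) ≤ Real.exp 1 := Real.exp_le_exp.mpr (by norm_num)
      have e6 : Real.exp 1 = Real.exp (1 / 2) * Real.exp (1 / 2) := by
        rw [← Real.exp_add]
        norm_num
      have h2 := Real.exp_one_lt_d9
      have h3 : 0 < Real.exp (1 / 2) := Real.exp_pos _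
      nlinarith
    have hq : 0 ≤ (p * Real.sqrt S) ^ p := by positivity
    calc 2 * (p * Real.sqrt S) ^ p * Real.exp (1 / 2)
        = (2 * Real.exp (1 / 2)) * (p * Real.sqrt S) ^ p := by ring
      _ ≤ 2 ^ p * (p * Real.sqrt S) ^ p :=
          mul_le_mul_of_nonneg_right (by linarith) hq

/-- Jensen on the cube. -/
theorem cav_rpow_le {k : ℕ} (F : (Fin k → Bool) → ℝ) (hF : ∀ x, 0 ≤ F x) {t : ℝ} (ht : 1 ≤ t) :
    cav F ^ t ≤ cav (fun x => F x ^ t) := by
  have hJ := Real.rpow_arith_mean_le_arith_mean_rpow (Finset.univ : Finset (Fin k → Bool))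
    (fun _ => (1 : ℝ) / 2 ^ k) F (fun _ _ => by positivity)
    (by simp) (fun x _ => hF x) (p := t) ht
  have hL : ∑ e : Fin k → Bool, (1 : ℝ) / 2 ^ k * F e = cav F := by
    unfold cav
    rw [Finset.sum_div]
    refine Finset.sum_congr rfl fun e _ => ?_
    ring
  have hR : ∑ e : Fin k → Bool, (1 : ℝ) / 2 ^ k * F e ^ t = cav (fun x => F x ^ t) := by
    unfold cav
    rw [Finset.sum_div]
    refine Finset.sum_congr rfl fun e _ => ?_
    ring
  rw [hL, hR] at hJ
  exact hJ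

theorem jensen_rad {k : ℕ} (v : Fin k → ℝ) {p : ℝ} (hp : 2 ≤ p) :
    (∑ i, v i ^ 2) ^ (p / 2) ≤ cav (fun e => |rad v e| ^ p) := by
  have h := cav_rpow_le (fun e => rad v e ^ 2) (fun _ => sq_nonneg _) (t := p / 2) (by linarith)
  rw [cav_rad_sq] at h
  refine h.trans (le_of_eq ?_)
  congr 1
  funext e
  rw [← sq_abs, ← Real.rpow_natCast, ← Real.rpow_mul (abs_nonneg _)]
  congr 1
  push_cast
  ring

theorem jensen_uu {K k : ℕ} (blk : Fin K → Fin k) {p : ℝ} (hp : 2 ≤ p) :
    (K : ℝ) ^ (p / 2) ≤ cav (fun x => (∑ j, uu blk x j ^ 2) ^ (p / 2)) := by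
  have h := cav_rpow_le (fun x => ∑ j, uu blk x j ^ 2)
    (fun _ => Finset.sum_nonneg fun _ _ => sq_nonneg _) (t := p / 2) (by linarith)
  rw [cav_uu_sq] at h
  exact h

end Vale.Agent.Lib.P249M
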