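import Vale.Agent.Lib.P249M.Final2

namespace Vale.Agent.Lib.P249M

open Finset Vale.Agent.Lib.P249 Vale.Agent.Lib.P249L

theorem pow_floor_le (n : ℕ) (h : 2 ≤ Real.log (Real.log n)) :
    (⌊Real.log n / Real.log (Real.log n)⌋₊ + 1) ^ ⌊Real.log n / Real.log (Real.log n)⌋₊ ≤ n := by
  set ℓ := Real.log n with hℓ
  set lam := Real.log ℓ with hlam
  set k := ⌊ℓ / lam⌋₊ with hk
  have hlampos : 0 < lam := by linarith
  have hℓ0 : 0 ≤ ℓ := Real.log_natCast_nonneg n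
  have hℓpos : 0 < ℓ := by
    rcases hℓ0.eq_or_lt with h0 | h0
    · rw [hlam, ← h0, Real.log_zero] at h
      linarith
    · exact h0
  have hexp : Real.exp lam = ℓ := Real.exp_log hℓpos
  have hℓ3 : 3 ≤ ℓ := by
    have := Real.add_one_le_exp lam
    linarith
  have hnpos : (0 : ℝ) < n := by
    rcases Nat.eq_zero_or_pos n with h0 | h0
    · subst h0
      simp at hℓ
      linarith
    · exact_mod_cast h0
  have hexpn : Real.exp ℓ = n := Real.exp_log hnpos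
  have hkle : (k : ℝ) ≤ ℓ / lam := Nat.floor_le (by positivity)
  have hk1 : (k : ℝ) + 1 ≤ ℓ := by
    have : ℓ / lam ≤ ℓ / 2 := div_le_div_of_nonneg_left hℓ0 (by norm_num) h
    linarith
  have hklam : (k : ℝ) * lam ≤ ℓ := by
    rwa [le_div_iff₀ hlampos] at hkle
  have hmain : ((k : ℝ) + 1) ^ k ≤ n := by
    calc ((k : ℝ) + 1) ^ k ≤ ℓ ^ k := pow_le_pow_left₀ (by positivity) hk1 k
      _ = Real.exp (k * lam) := by rw [← hexp, ← Real.exp_nat_mul]
      _ ≤ Real.exp ℓ := Real.exp_le_exp.2 hklam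
      _ = n := hexpn
  exact_mod_cast hmain

theorem dimRed_lower_log (p D : ℝ) (hp : 2 ≤ p) (hD : 1 < D) (n : ℕ)
    (h : 2 ≤ Real.log (Real.log n)) :
    ((⌊Real.log n / Real.log (Real.log n)⌋₊ : ℕ) : ℝ) ^ (p / 2) / (81 * p ^ 2 * D) ^ p
      ≤ dimRed p n D :=
  dimRed_lower2 p D hp hD n _ (pow_floor_le n h)

end Vale.Agent.Lib.P249M
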