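import Vale.Agent.Lib.P249M.Conc2
import Vale.Agent.Lib.P249M.KhinGen

namespace Vale.Agent.Lib.P249M

open Finset Vale.Agent.Lib.P249L

/-- The dimension bound for the grid `{-M, -M+2, ..., M}^k`, all norms raised to the power `p`. -/
theorem main_grid {k M d : ℕ} (hk : 1 ≤ k) (hkM : k ≤ M) {p D s : ℝ} (hp : 2 ≤ p) (hD : 0 < D)
    (hs : 0 < s) (f : (Fin k → Fin (M + 1)) → Fin d → ℝ)
    (h1 : ∀ a b, s ^ p * (∑ e, |rad (gpt k M a) e - rad (gpt k M b) e| ^ p)
      ≤ ∑ j, |f a j - f b j| ^ p)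
    (h2 : ∀ a b, ∑ j, |f a j - f b j| ^ p
      ≤ (D * s) ^ p * ∑ e, |rad (gpt k M a) e - rad (gpt k M b) e| ^ p) :
    (k : ℝ) ^ (p / 2) / (81 * p ^ 2 * D) ^ p ≤ d := by
  have hp0 : 0 < p := by linarith
  have hkpos : (0 : ℝ) < k := by exact_mod_cast hk
  have hMpos : (0 : ℝ) < M := by
    have : 1 ≤ M := hk.trans hkM
    exact_mod_cast this
  obtain ⟨blk, hfib⟩ := exists_blk k M
  choose cnt hcnt using exists_cnt blk hfib
  have hK : k * M ≤ M * M := Nat.mul_le_mul_right M hkM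
  set T : ℝ := 2 ^ k with hT
  have hTpos : 0 < T := by positivity
  set τ : ℝ := T ^ (1 / p) with hτ
  have hτpos : 0 < τ := Real.rpow_pos_of_pos hTpos _
  have hτp : τ ^ p = T := by
    rw [hτ, ← Real.rpow_mul hTpos.le, one_div, inv_mul_cancel₀ hp0.ne', Real.rpow_one]
  set r : ℝ := Real.sqrt M with hr
  have hrpos : 0 < r := Real.sqrt_pos.2 hMpos
  have hr2 : r ^ 2 = M := Real.sq_sqrt hMpos.le
  have hrp : r ^ p = (M : ℝ) ^ (p / 2) := by
    rw [hr, Real.sqrt_eq_rpow, ← Real.rpow_mul hMpos.le]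
    congr 1
    ring
  set B : ℝ := 81 * p ^ 2 * D with hB
  have hBpos : 0 < B := by positivity
  set L : ℝ := 2 * p * D * s * τ with hL
  have hLpos : 0 < L := by positivity
  -- every coordinate is Lipschitz
  have hlip : ∀ j a b, |f a j - f b j| ≤ L * Real.sqrt (dsq (gpt k M a) (gpt k M b)) := by
    intro j a b
    have e1 : |f a j - f b j| ^ p ≤ ∑ j, |f a j - f b j| ^ p :=
      Finset.single_le_sum (f := fun j => |f a j - f b j| ^ p)
        (fun i _ => Real.rpow_nonneg (abs_nonneg _) p) (mem_univ j)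
    have e2 := h2 a b
    rw [sum_eq_cav] at e2
    have e3 := khin_gen (fun i => gpt k M a i - gpt k M b i) hp
    have e3' : cav (fun e => |rad (gpt k M a) e - rad (gpt k M b) e| ^ p)
        ≤ (2 * p * Real.sqrt (dsq (gpt k M a) (gpt k M b))) ^ p := by
      have : (fun e => |rad (gpt k M a) e - rad (gpt k M b) e| ^ p)
          = fun e => |rad (fun i => gpt k M a i - gpt k M b i) e| ^ p := by
        funext e
        rw [rad_sub]
      rw [this]
      exact e3
    set Q := Real.sqrt (dsq (gpt k M a) (gpt k M b)) with hQ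
    have hsq : 0 ≤ Q := Real.sqrt_nonneg _
    have e4 : (D * s) ^ p * (2 ^ k * cav fun e => |rad (gpt k M a) e - rad (gpt k M b) e| ^ p)
        ≤ (L * Q) ^ p := by
      have : (L * Q) ^ p = (D * s) ^ p * (T * (2 * p * Q) ^ p) := by
        rw [← hτp, ← Real.mul_rpow hτpos.le (by positivity),
          ← Real.mul_rpow (by positivity) (by positivity), hL]
        congr 1
        ring
      rw [this]
      apply mul_le_mul_of_nonneg_left _ (Real.rpow_nonneg (by positivity) p)
      exact mul_le_mul_of_nonneg_left e3' hTpos.le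
    have e5 : |f a j - f b j| ^ p ≤ (L * Q) ^ p := e1.trans (e2.trans e4)
    exact (Real.rpow_le_rpow_iff (abs_nonneg _) (by positivity) hp0).1 e5
  -- upper bound
  have hup : cav (fun x => ∑ j, |f (cnt x) j - f (cnt (anti x)) j| ^ p)
      ≤ d * (81 * p * L * r) ^ p := by
    rw [cav_sum]
    calc ∑ j : Fin d, cav (fun x => |f (cnt x) j - f (cnt (anti x)) j| ^ p)
        ≤ ∑ _j : Fin d, (81 * p * L * r) ^ p := by
          apply Finset.sum_le_sum
          intro j _
          apply conc2 blk hfib hK (fun x => f (cnt x) j) L r hLpos hrpos hr2 hp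
          intro x y
          have := hlip j (cnt x) (cnt y)
          rwa [hcnt x, hcnt y] at this
      _ = d * (81 * p * L * r) ^ p := by
          rw [Finset.sum_const, Finset.card_univ, Fintype.card_fin, nsmul_eq_mul]
  -- lower bound
  have h4 : (4 : ℝ) ^ (p / 2) = 2 ^ p := by
    rw [show (4 : ℝ) = 2 ^ (2 : ℝ) by norm_num, ← Real.rpow_mul (by norm_num)]
    congr 1
    ring
  have hlow1 : ∀ x, s ^ p * (T * (2 ^ p * (∑ j, uu blk x j ^ 2) ^ (p / 2)))
      ≤ ∑ j, |f (cnt x) j - f (cnt (anti x)) j| ^ p := by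
    intro x
    refine le_trans ?_ (h1 (cnt x) (cnt (anti x)))
    rw [sum_eq_cav]
    apply mul_le_mul_of_nonneg_left _ (Real.rpow_nonneg hs.le p)
    apply mul_le_mul_of_nonneg_left _ hTpos.le
    have e : (fun e => |rad (gpt k M (cnt x)) e - rad (gpt k M (cnt (anti x))) e| ^ p)
        = fun e => |rad (fun i => 2 * uu blk x i) e| ^ p := by
      funext e
      rw [rad_sub, hcnt x, hcnt (anti x)]
      congr 3
      funext i
      rw [uu_anti]
      ring
    rw [e]
    refine le_trans (le_of_eq ?_) (jensen_rad (fun i => 2 * uu blk x i) hp)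
    have e2 : ∑ i, (2 * uu blk x i) ^ 2 = 4 * ∑ i, uu blk x i ^ 2 := by
      rw [Finset.mul_sum]
      apply Finset.sum_congr rfl
      intro i _
      ring
    rw [e2, Real.mul_rpow (by norm_num) (Finset.sum_nonneg fun i _ => sq_nonneg _), h4]
  have hlow : s ^ p * (T * (2 ^ p * ((k : ℝ) ^ (p / 2) * (M : ℝ) ^ (p / 2))))
      ≤ cav (fun x => ∑ j, |f (cnt x) j - f (cnt (anti x)) j| ^ p) := by
    have h := cav_mono hlow1
    refine le_trans ?_ h
    rw [cav_mul_left, cav_mul_left, cav_mul_left]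
    apply mul_le_mul_of_nonneg_left _ (Real.rpow_nonneg hs.le p)
    apply mul_le_mul_of_nonneg_left _ hTpos.le
    apply mul_le_mul_of_nonneg_left _ (Real.rpow_nonneg (by norm_num) p)
    have := jensen_uu blk hp
    rwa [Nat.cast_mul, Real.mul_rpow hkpos.le hMpos.le] at this
  have hexp : (81 * p * L * r) ^ p = 2 ^ p * B ^ p * s ^ p * T * r ^ p := by
    rw [← hτp, ← Real.mul_rpow (by norm_num) hBpos.le, ← Real.mul_rpow (by positivity) hs.le,
      ← Real.mul_rpow (by positivity) hτpos.le, ← Real.mul_rpow (by positivity) hrpos.le, hL, hB]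
    congr 1
    ring
  have hmain := hlow.trans hup
  rw [hexp, hrp] at hmain
  have hsp : 0 < s ^ p := Real.rpow_pos_of_pos hs p
  have h2p : (0 : ℝ) < 2 ^ p := Real.rpow_pos_of_pos (by norm_num) p
  have hMp : 0 < (M : ℝ) ^ (p / 2) := Real.rpow_pos_of_pos hMpos _
  have hBp : 0 < B ^ p := Real.rpow_pos_of_pos hBpos p
  have hfin : (k : ℝ) ^ (p / 2) ≤ d * B ^ p := by
    have hc : 0 < s ^ p * T * 2 ^ p * (M : ℝ) ^ (p / 2) := by positivity
    apply le_of_mul_le_mul_left _ hc
    calc s ^ p * T * 2 ^ p * (M : ℝ) ^ (p / 2) * (k : ℝ) ^ (p / 2)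
        = s ^ p * (T * (2 ^ p * ((k : ℝ) ^ (p / 2) * (M : ℝ) ^ (p / 2)))) := by ring
      _ ≤ d * (2 ^ p * B ^ p * s ^ p * T * (M : ℝ) ^ (p / 2)) := hmain
      _ = s ^ p * T * 2 ^ p * (M : ℝ) ^ (p / 2) * (d * B ^ p) := by ring
  rw [div_le_iff₀ hBp]
  exact hfin

end Vale.Agent.Lib.P249M
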