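import Vale.Agent.Lib.P249M.Defs

namespace Vale.Agent.Lib.P249M

open Finset Vale.Agent.Lib.P249L

theorem cav_mul_sq_le {k : ℕ} (F H : (Fin k → Bool) → ℝ) :
    cav (fun x => F x * H x) ^ 2 ≤ cav (fun x => F x ^ 2) * cav (fun x => H x ^ 2) := by
  unfold cav
  have h := Finset.sum_mul_sq_le_sq_mul_sq (Finset.univ : Finset (Fin k → Bool)) F H
  rw [div_pow, div_mul_div_comm, ← pow_two]
  exact div_le_div_of_nonneg_right h (by positivity)

theorem cav_sq_le {k : ℕ} (F : (Fin k → Bool) → ℝ) : cav F ^ 2 ≤ cav (fun x => F x ^ 2) := by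
  have h := cav_mul_sq_le F (fun _ => 1)
  simp only [mul_one, one_pow, cav_const] at h
  exact h

theorem qv_le_comp {k : ℕ} (G : (Fin k → Bool) → ℝ) (β : Fin k → (Fin k → Bool) → ℝ)
    (hβ : ∀ x i, (G x - G (flip x i)) ^ 2 ≤ β i x + β i (flip x i)) (x : Fin k → Bool) :
    qv k G x ≤ comp k β x / 2 := by
  induction k with
  | zero => simp [qv, comp]
  | succ k ih =>
    have ih1 := ih (fun y => G (Fin.cons (x 0) y)) (fun i y => β i.succ (Fin.cons (x 0) y))
      (by
        intro y i
        have := hβ (Fin.cons (x 0) y) i.succ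
        rw [flip_cons_succ] at this
        exact this) (Fin.tail x)
    have e1 : cav (fun y : Fin k → Bool => G (Fin.cons true y))
        - cav (fun y : Fin k → Bool => G (Fin.cons false y))
        = cav (fun y : Fin k → Bool => G (Fin.cons true y) + (-1) * G (Fin.cons false y)) := by
      rw [cav_add, cav_mul_left]
      ring
    have e2 := cav_sq_le
      (fun y : Fin k → Bool => G (Fin.cons true y) + (-1) * G (Fin.cons false y))
    have e3 : cav (fun y : Fin k → Bool =>
        (G (Fin.cons true y) + (-1) * G (Fin.cons false y)) ^ 2)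
        ≤ cav (fun y : Fin k → Bool => β 0 (Fin.cons true y) + β 0 (Fin.cons false y)) := by
      apply cav_mono
      intro y
      have := hβ (Fin.cons true y) 0
      rw [flip_cons_zero] at this
      simp only [Bool.not_true] at this
      calc (G (Fin.cons true y) + (-1) * G (Fin.cons false y)) ^ 2
          = (G (Fin.cons true y) - G (Fin.cons false y)) ^ 2 := by ring
        _ ≤ _ := this
    have e4 : cav (fun y : Fin k → Bool => β 0 (Fin.cons true y) + β 0 (Fin.cons false y))
        = 2 * cav (β 0) := by
      rw [cav_add, cav_succ (β 0)]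
      ring
    simp only [qv, comp]
    rw [e1, div_pow]
    rw [e4] at e3
    linarith

end Vale.Agent.Lib.P249M
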