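import Vale.Agent.Lib.P249M.Super
import Vale.Agent.Lib.P249M.QvLe
import Vale.Agent.Lib.P249M.CompExp

namespace Vale.Agent.Lib.P249M

open Finset Vale.Agent.Lib.P249L

/-- Concentration from a pointwise bound of the (symmetrised) squared gradient. -/
theorem mgf_grad {k : ℕ} (G : (Fin k → Bool) → ℝ) (β : Fin k → (Fin k → Bool) → ℝ) (v l : ℝ)
    (hβ0 : ∀ i x, 0 ≤ β i x)
    (hβ : ∀ x i, (G x - G (flip x i)) ^ 2 ≤ β i x + β i (flip x i))
    (hv : ∀ x, ∑ i, β i x ≤ v) (hl : l ^ 2 * v ≤ 1 / 2) :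
    cav (fun x => Real.exp (l * (G x - cav G))) ≤ 2 := by
  set F : (Fin k → Bool) → ℝ := fun x => Real.exp (l * (G x - cav G) - l ^ 2 * qv k G x) with hF
  set H : (Fin k → Bool) → ℝ := fun x => Real.exp (l ^ 2 * qv k G x) with hH
  have hFH : (fun x => Real.exp (l * (G x - cav G))) = fun x => F x * H x := by
    funext x
    simp only [hF, hH]
    rw [← Real.exp_add]
    congr 1
    ring
  have h1 : cav (fun x => F x ^ 2) ≤ 1 := by
    have := super_mart G (2 * l)
    refine le_trans (le_of_eq ?_) this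
    congr 1
    funext x
    simp only [hF]
    rw [← Real.exp_nat_mul]
    congr 1
    push_cast
    ring
  have h2 : cav (fun x => H x ^ 2) ≤ 2 := by
    refine le_trans (cav_mono fun x => ?_) (comp_exp' β v (l ^ 2) hβ0 hv (sq_nonneg l) hl)
    simp only [hH]
    rw [← Real.exp_nat_mul]
    apply Real.exp_le_exp.2
    have := qv_le_comp G β hβ x
    push_cast
    nlinarith [sq_nonneg l]
  have h0 : 0 ≤ cav (fun x => H x ^ 2) := by
    have : cav (fun _ : Fin k → Bool => (0 : ℝ)) ≤ cav (fun x => H x ^ 2) :=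
      cav_mono fun x => by positivity
    rwa [cav_const] at this
  have h3 := cav_mul_sq_le F H
  rw [hFH]
  have h4 : cav (fun x => F x * H x) ^ 2 ≤ 2 := by
    calc cav (fun x => F x * H x) ^ 2 ≤ cav (fun x => F x ^ 2) * cav (fun x => H x ^ 2) := h3
      _ ≤ 1 * 2 := mul_le_mul h1 h2 h0 (by norm_num)
      _ = 2 := by norm_num
  nlinarith

theorem moment_grad {k : ℕ} (G : (Fin k → Bool) → ℝ) (β : Fin k → (Fin k → Bool) → ℝ) (v l : ℝ)
    (hβ0 : ∀ i x, 0 ≤ β i x)
    (hβ : ∀ x i, (G x - G (flip x i)) ^ 2 ≤ β i x + β i (flip x i))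
    (hv : ∀ x, ∑ i, β i x ≤ v) (hl0 : 0 < l) (hl : l ^ 2 * v ≤ 1 / 2) {p : ℝ} (hp : 0 < p) :
    cav (fun x => |G x - cav G| ^ p) ≤ 4 * (p / l) ^ p := by
  have hpl : 0 ≤ (p / l) ^ p := by positivity
  have a1 := mgf_grad G β v l hβ0 hβ hv hl
  have e2 : (-l) ^ 2 = l ^ 2 := by ring
  have a2 := mgf_grad G β v (-l) hβ0 hβ hv (by rw [e2]; exact hl)
  calc cav (fun x => |G x - cav G| ^ p)
      ≤ cav (fun x => (p / l) ^ p *
          (Real.exp (l * (G x - cav G)) + Real.exp (-l * (G x - cav G)))) :=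
        cav_mono (fun x => abs_rpow_le_exp _ hp hl0)
    _ = (p / l) ^ p * (cav (fun x => Real.exp (l * (G x - cav G)))
          + cav (fun x => Real.exp (-l * (G x - cav G)))) := by
        rw [cav_mul_left, cav_add]
    _ ≤ (p / l) ^ p * (2 + 2) :=
        mul_le_mul_of_nonneg_left (add_le_add a1 a2) hpl
    _ = 4 * (p / l) ^ p := by ring

end Vale.Agent.Lib.P249M
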