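import Vale.Agent.Lib.P249M.Defs

namespace Vale.Agent.Lib.P249M

open Finset Vale.Agent.Lib.P249L

/-- The exponential supermartingale. -/
theorem super_mart {k : ℕ} (G : (Fin k → Bool) → ℝ) (l : ℝ) :
    cav (fun x => Real.exp (l * (G x - cav G) - l ^ 2 / 2 * qv k G x)) ≤ 1 := by
  induction k with
  | zero =>
    rw [cav_zero _ (fun i => i.elim0), cav_zero G (fun i => i.elim0)]
    simp [qv]
  | succ k ih =>
    set G1 : (Fin k → Bool) → ℝ := fun y => G (Fin.cons true y) with hG1
    set G0 : (Fin k → Bool) → ℝ := fun y => G (Fin.cons false y) with hG0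
    set m1 := cav G1 with hm1
    set m0 := cav G0 with hm0
    have hm : cav G = (m1 + m0) / 2 := cav_succ G
    have ih1 := ih G1
    have ih0 := ih G0
    set t := (m1 - m0) / 2 with ht
    have e1 : cav (fun y : Fin k → Bool => Real.exp (l * (G (Fin.cons true y) - cav G)
          - l ^ 2 / 2 * qv (k + 1) G (Fin.cons true y)))
        = Real.exp (l * t - (l * t) ^ 2 / 2)
          * cav (fun y => Real.exp (l * (G1 y - cav G1) - l ^ 2 / 2 * qv k G1 y)) := by
      rw [← cav_mul_left]
      congr 1
      funext y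
      rw [← Real.exp_add, hm]
      congr 1
      simp only [qv, Fin.cons_zero, Fin.tail_cons]
      simp only [← hG1, ← hG0, ← hm1, ← hm0, ht]
      ring
    have e0 : cav (fun y : Fin k → Bool => Real.exp (l * (G (Fin.cons false y) - cav G)
          - l ^ 2 / 2 * qv (k + 1) G (Fin.cons false y)))
        = Real.exp (-(l * t) - (l * t) ^ 2 / 2)
          * cav (fun y => Real.exp (l * (G0 y - cav G0) - l ^ 2 / 2 * qv k G0 y)) := by
      rw [← cav_mul_left]
      congr 1
      funext y
      rw [← Real.exp_add, hm]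
      congr 1
      simp only [qv, Fin.cons_zero, Fin.tail_cons]
      simp only [← hG1, ← hG0, ← hm1, ← hm0, ht]
      ring
    rw [cav_succ, e1, e0]
    have hcosh : (Real.exp (l * t) + Real.exp (-(l * t))) / 2 ≤ Real.exp ((l * t) ^ 2 / 2) := by
      rw [← Real.cosh_eq]
      exact Real.cosh_le_exp_half_sq _
    have p1 := Real.exp_pos (l * t - (l * t) ^ 2 / 2)
    have p0 := Real.exp_pos (-(l * t) - (l * t) ^ 2 / 2)
    have b1 := mul_le_mul_of_nonneg_left ih1 p1.le
    have b0 := mul_le_mul_of_nonneg_left ih0 p0.le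
    have s1 : Real.exp (l * t - (l * t) ^ 2 / 2)
        = Real.exp (l * t) * Real.exp (-((l * t) ^ 2 / 2)) := by
      rw [← Real.exp_add]; congr 1
    have s0 : Real.exp (-(l * t) - (l * t) ^ 2 / 2)
        = Real.exp (-(l * t)) * Real.exp (-((l * t) ^ 2 / 2)) := by
      rw [← Real.exp_add]; congr 1
    have hfin : (Real.exp (l * t - (l * t) ^ 2 / 2) + Real.exp (-(l * t) - (l * t) ^ 2 / 2)) / 2
        ≤ 1 := by
      rw [s1, s0]
      have hE := Real.exp_pos (-((l * t) ^ 2 / 2))
      have h := mul_le_mul_of_nonneg_right hcosh hE.le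
      rw [← Real.exp_add] at h
      simp only [add_neg_cancel, Real.exp_zero] at h
      linarith
    linarith

end Vale.Agent.Lib.P249M
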