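import Vale.Agent.Lib.P249M.MainGrid

namespace Vale.Agent.Lib.P249M

open Finset Vale.Agent.Lib.P249 Vale.Agent.Lib.P249L

/-- An enumeration of the grid. -/
noncomputable def gridEquiv (k M : ℕ) : Fin ((M + 1) ^ k) ≃ (Fin k → Fin (M + 1)) :=
  (Fintype.equivFinOfCardEq (by simp)).symm

/-- The `(M+1)^k` points of `ℓ_p^(2^k)`: the point with index `a` has the coordinates
`∑_j a_j ε_j`, `a` a grid point, `ε` running through all sign vectors. -/
noncomputable def pts2 (k M : ℕ) : Fin ((M + 1) ^ k) → Fin (2 ^ k) → ℝ :=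
  fun a e => rad (gpt k M (gridEquiv k M a)) (cubeEquiv k e)

theorem pts2_injective (k M : ℕ) : Function.Injective (pts2 k M) := by
  intro a b hab
  have h1 : ∀ e : Fin k → Bool,
      rad (gpt k M (gridEquiv k M a)) e = rad (gpt k M (gridEquiv k M b)) e := by
    intro e
    have := congrFun hab ((cubeEquiv k).symm e)
    simpa [pts2] using this
  have h2 : ∀ e : Fin k → Bool,
      rad (fun i => gpt k M (gridEquiv k M a) i - gpt k M (gridEquiv k M b) i) e = 0 := by
    intro e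
    rw [← rad_sub, h1 e, sub_self]
  have h3 := cav_rad_sq (fun i => gpt k M (gridEquiv k M a) i - gpt k M (gridEquiv k M b) i)
  have h4 : cav (fun e =>
      rad (fun i => gpt k M (gridEquiv k M a) i - gpt k M (gridEquiv k M b) i) e ^ 2) = 0 := by
    simp [cav, h2]
  rw [h4] at h3
  have h5 : ∀ i ∈ (univ : Finset (Fin k)),
      (gpt k M (gridEquiv k M a) i - gpt k M (gridEquiv k M b) i) ^ 2 = 0 :=
    (sum_eq_zero_iff_of_nonneg (fun i _ => sq_nonneg _)).mp h3.symm
  apply (gridEquiv k M).injective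
  funext i
  have h6 := h5 i (mem_univ i)
  have h7 : gpt k M (gridEquiv k M a) i - gpt k M (gridEquiv k M b) i = 0 := by
    exact pow_eq_zero_iff (two_ne_zero) |>.mp h6
  unfold gpt at h7
  have h8 : (((gridEquiv k M a i : Fin (M + 1)) : ℕ) : ℝ) = (((gridEquiv k M b i : Fin (M + 1)) : ℕ) : ℝ) := by
    linarith
  exact Fin.ext (Nat.cast_injective h8)

theorem sum_pts2 {k M : ℕ} (p : ℝ) (a b : Fin k → Fin (M + 1)) :
    ∑ e', |(pts2 k M ((gridEquiv k M).symm a) - pts2 k M ((gridEquiv k M).symm b)) e'| ^ p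
      = ∑ e, |rad (gpt k M a) e - rad (gpt k M b) e| ^ p := by
  rw [← Equiv.sum_comp (cubeEquiv k) (fun e => |rad (gpt k M a) e - rad (gpt k M b) e| ^ p)]
  simp [pts2]

theorem pts2_lower {k M d : ℕ} (hk : 1 ≤ k) (hkM : k ≤ M) {p D : ℝ} (hp : 2 ≤ p) (hD : 0 < D)
    (h : EmbedsInto p D (pts2 k M) d) : (k : ℝ) ^ (p / 2) / (81 * p ^ 2 * D) ^ p ≤ d := by
  obtain ⟨f, s, hs, h⟩ := h
  have hp0 : 0 < p := by linarith
  refine main_grid hk hkM hp hD hs (fun a => f ((gridEquiv k M).symm a)) ?_ ?_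
  · intro a b
    have h1 := (h ((gridEquiv k M).symm a) ((gridEquiv k M).symm b)).1
    have h2 := Real.rpow_le_rpow (mul_nonneg hs.le (lpNorm_nonneg' p _)) h1 hp0.le
    rw [Real.mul_rpow hs.le (lpNorm_nonneg' p _), lpNorm_rpow hp0, lpNorm_rpow hp0, sum_pts2] at h2
    simpa using h2
  · intro a b
    have h1 := (h ((gridEquiv k M).symm a) ((gridEquiv k M).symm b)).2
    have h2 := Real.rpow_le_rpow (lpNorm_nonneg' p _) h1 hp0.le
    rw [Real.mul_rpow (mul_nonneg hD.le hs.le) (lpNorm_nonneg' p _), lpNorm_rpow hp0,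
      lpNorm_rpow hp0, sum_pts2] at h2
    simpa using h2

end Vale.Agent.Lib.P249M
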